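import Vale.Agent.FK.LevelA
import Vale.Agent.FK.LevelB

/-!
# P063 / FK / Level [LEV]: the mass of one level

`level_mid`: average `star` over the random set `J = {e : y e = true}`, `y` of law `ρ`, with
`G = {F : |F| ≤ d, u ≤ |supp F|}`, `d = ⌊2 ρ k⌋`, `u = ⌈ρ k / 4⌉`, `ω = (2 r k / n)^u` (`omega_bound`);
`owner` with `D = 1/(8 ρ)` and `color` give `P(S ∩ J ∈ G) ≥ 1/2` for `|S| = k`.
-/
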