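import Vale.Agent.FK.StarB
import Vale.Agent.FK.StarC

/-!
# P063 / FK / Star [STAR]: the main inequality for a fixed set `J`

Notation: `g_x y = f (mix J x y)`, `h F x = ft p g_x F` (zero unless `F ⊆ J`), `x` good iff
`II p g_x ≤ Q`, `h' F x = h F x` if `x` good and `τ ≤ Inf p e g_x` for all `e ∈ F`, else `0`.
`L F x = ∑_{|S|=k, S ∩ J = F} ft p f S · ch p (S \ J) x`, `a F = ∑_{|S|=k, S ∩ J = F} ft p f S ^ 2`.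

(1) `Ex (L F · h F) = a F`   (`Ex_mix`, `ch_mix`).
(2) `∑_F Ex (h F)² ≤ 1`  (`parseval` for each `x`).
(3) `∑_{F, |F| ≤ d} Ex (h F - h' F)² ≤ II p f / Q + λ √B^d √τ II p f`  (`junta`; `Ex_x II p g_x ≤ II p f`).
(4) `∑_{F, |F| ≤ d} P(h' F ≠ 0) ≤ (Q/τ + 1)^d`.
(5) normal `F` (`P(h' F ≠ 0) ≤ η`): `Ex (L F · h' F) ≤ (B^k η)^{1/4} (a F)^{1/2} (Ex (h F)²)^{1/2}
    ≤ (B^k η)^{1/4} Ex (h F)²`; so `A = ∑_{normal} a F ≤ (B^k η)^{1/4} + (A ε')^{1/2}`,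
    `A ≤ 2 (B^k η)^{1/4} + ε'`.
(6) at most `(Q/τ+1)^d / η` exceptional `F`, each with `a F ≤ ω`.
-/
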