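import Vale.Agent.FK.SymA
import Vale.Agent.FK.SymB
import Vale.Agent.FK.SymC

/-!
# P063 / FK / Sym [SYM]: consequences of the invariance under the symmetric group
-/
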